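import Crest.Prelude.Def_TreeIsing
import Crest.Prelude.Def_Labels

/-!
Row 160 (S0241): definitions shared by all files.

* coordinates on the `(b+1)`-regular tree (`Kids`, `down`, `side`, `ball`);
* finite-volume Gibbs averages with edge fields (`gm`, `mag`, `cv`, `cav`);
* the abstract branch model (`Xi`, `Psi`, `arr`, `Pabs`);
* the Euler scheme (`eul`).
-/

set_option autoImplicit false
set_option linter.unusedSectionVars false
set_option linter.unusedVariables false
set_option maxHeartbeats 400000

open MeasureTheory ProbabilityTheory Filter Topology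
open scoped ENNReal

namespace Crest.Agent.R160

universe u
variable {V : Type u}

/-! ### Tree coordinates -/

/-- A dart `D` is read as (child `D.fst`, parent `D.snd`).  `kid D a`, `a : Fin b`, enumerates the
darts whose parent is `D.fst` and whose child is not `D.snd`. -/
structure Kids (G : SimpleGraph V) (b : ℕ) : Type u where
  kid : G.Dart → Fin b → G.Dart
  snd_kid : ∀ D a, (kid D a).snd = D.fst
  fst_ne : ∀ D a, (kid D a).fst ≠ D.snd
  inj : ∀ D, Function.Injective (kid D)
  surj : ∀ D v, G.Adj v D.fst → v ≠ D.snd → ∃ a, (kid D a).fst = v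

variable {G : SimpleGraph V} {b : ℕ}

/-- The dart reached from `D` by following the address `l` away from `D.snd`. -/
def Kids.down (K : Kids G b) : G.Dart → List (Fin b) → G.Dart
  | D, [] => D
  | D, a :: l => K.down (K.kid D a) l

@[simp] lemma Kids.down_nil (K : Kids G b) (D : G.Dart) : K.down D [] = D := by
  simp only [Kids.down]

@[simp] lemma Kids.down_cons (K : Kids G b) (D : G.Dart) (a : Fin b) (l : List (Fin b)) :
    K.down D (a :: l) = K.down (K.kid D a) l := by
  have := @Kids.down.eq_def V G b
  simp only [Kids.down]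

lemma Kids.down_append (K : Kids G b) (D : G.Dart) (l l' : List (Fin b)) :
    K.down D (l ++ l') = K.down (K.down D l) l' := by
  induction l generalizing D with
  | nil => simp
  | cons a l ih => simp [ih]

/-- The vertices on the child's side of the dart. -/
def side (D : G.Dart) : Set V := {x | G.dist x D.fst < G.dist x D.snd}

/-- The edge of a dart. -/
def ed (D : G.Dart) : G.edgeSet := ⟨D.edge, D.edge_mem⟩

/-- The dart with parent `o` and child `w`. -/
def inD (o : V) (w : G.neighborSet o) : G.Dart := (G.dartOfNeighborSet o w).symm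

@[simp] lemma inD_snd (o : V) (w : G.neighborSet o) : (inD o w).snd = o := rfl
@[simp] lemma inD_fst (o : V) (w : G.neighborSet o) : (inD o w).fst = w := rfl

/-- The image of a dart under an automorphism. -/
def mapD (g : G ≃g G) (D : G.Dart) : G.Dart := g.toHom.mapDart D

@[simp] lemma mapD_fst (g : G ≃g G) (D : G.Dart) : (mapD g D).fst = g D.fst := rfl
@[simp] lemma mapD_snd (g : G ≃g G) (D : G.Dart) : (mapD g D).snd = g D.snd := rfl

open Classical in
/-- The ball of radius `R` (in a connected graph: `x ∈ ball G o R ↔ G.dist o x ≤ R`). -/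
noncomputable def ball (G : SimpleGraph V) [G.LocallyFinite] (o : V) : ℕ → Finset V
  | 0 => {o}
  | R + 1 => ball G o R ∪ (ball G o R).biUnion fun v => G.neighborFinset v

lemma ball_zero (G : SimpleGraph V) [G.LocallyFinite] (o : V) : ball G o 0 = {o} := by
  simp only [ball]

open Classical in
lemma ball_succ (G : SimpleGraph V) [G.LocallyFinite] (o : V) (R : ℕ) :
    ball G o (R + 1) = ball G o R ∪ (ball G o R).biUnion fun v => G.neighborFinset v := by
  have := @ball.eq_def V G _ o
  simp only [ball]

/-- The addresses of length `k`. -/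
def lists (b k : ℕ) : Finset (List (Fin b)) :=
  (Finset.univ : Finset (Fin k → Fin b)).image List.ofFn

lemma mem_lists {k : ℕ} {l : List (Fin b)} : l ∈ lists b k ↔ l.length = k := by
  simp only [lists, Finset.mem_image, Finset.mem_univ, true_and]
  constructor
  · rintro ⟨f, rfl⟩
    simp
  · rintro rfl
    exact ⟨l.get, List.ofFn_get l⟩

lemma card_lists (b k : ℕ) : (lists b k).card = b ^ k := by
  rw [lists, Finset.card_image_of_injective _ List.ofFn_injective]
  simp

/-- The volume `Λ` cuts the branch of `D` exactly at depth `L`. -/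
def Full (K : Kids G b) (Λ : Finset V) (D : G.Dart) (L : ℕ) : Prop :=
  D.snd ∈ Λ ∧ ∀ l, (K.down D l).fst ∈ Λ ↔ l.length ≤ L

/-! ### Gibbs averages -/

/-- The average of `g` on `S` with weights `exp H`. -/
noncomputable def avg {α : Type*} (S : Finset α) (H g : α → ℝ) : ℝ :=
  (∑ A ∈ S, Real.exp (H A) * g A) / ∑ A ∈ S, Real.exp (H A)

/-- The sign of a Boolean. -/
def sgn (t : Bool) : ℝ := if t then 1 else -1

open Classical in
/-- A configuration is the finite set of its plus spins. -/
noncomputable def spin (A : Finset V) (v : V) : ℝ := if v ∈ A then 1 else -1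

/-- Product of the two spins of an edge. -/
noncomputable def sx (A : Finset V) (e : Sym2 V) : ℝ :=
  Sym2.lift ⟨fun u v => spin A u * spin A v, fun _ _ => mul_comm _ _⟩ e

/-- Sum of the two spins of an edge. -/
noncomputable def sp (A : Finset V) (e : Sym2 V) : ℝ :=
  Sym2.lift ⟨fun u v => spin A u + spin A v, fun _ _ => add_comm _ _⟩ e

@[simp] lemma sx_mk (A : Finset V) (u v : V) : sx A s(u, v) = spin A u * spin A v := rfl
@[simp] lemma sp_mk (A : Finset V) (u v : V) : sp A s(u, v) = spin A u + spin A v := rfl
lemma sx_ed (A : Finset V) (D : G.Dart) : sx A (ed D).1 = spin A D.fst * spin A D.snd := rfl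
lemma sp_ed (A : Finset V) (D : G.Dart) : sp A (ed D).1 = spin A D.fst + spin A D.snd := rfl

open Classical in
/-- The edges with both endpoints in `Λ`. -/
noncomputable def EF (G : SimpleGraph V) (Λ : Finset V) : Finset G.edgeSet :=
  Λ.sym2.subtype (· ∈ G.edgeSet)

lemma mem_EF {Λ : Finset V} {e : G.edgeSet} : e ∈ EF G Λ ↔ ∀ v ∈ e.1, v ∈ Λ := by
  classical
  simp only [EF, Finset.mem_subtype, Finset.mem_sym2_iff]

lemma ed_mem_EF {Λ : Finset V} {D : G.Dart} : ed D ∈ EF G Λ ↔ D.fst ∈ Λ ∧ D.snd ∈ Λ := by
  rw [mem_EF]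
  simp [ed, SimpleGraph.Dart.edge]

open Classical in
/-- The edges of `Λ` inside the branch of `D`. -/
noncomputable def EFin (Λ : Finset V) (D : G.Dart) : Finset G.edgeSet :=
  (EF G Λ).filter fun e => ∀ v ∈ e.1, v ∈ side D

/-- The Hamiltonian with coupling `J` and edge fields `y`. -/
noncomputable def ham (F : Finset G.edgeSet) (J : ℝ) (y : G.edgeSet → ℝ) (A : Finset V) : ℝ :=
  ∑ e ∈ F, (J * sx A e.1 + y e * sp A e.1)

/-- Gibbs mean in the volume `Λ`. -/
noncomputable def gm (G : SimpleGraph V) (Λ : Finset V) (J : ℝ) (y : G.edgeSet → ℝ)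
    (g : Finset V → ℝ) : ℝ :=
  avg Λ.powerset (ham (EF G Λ) J y) g

/-- Magnetisation. -/
noncomputable def mag (G : SimpleGraph V) (Λ : Finset V) (J : ℝ) (y : G.edgeSet → ℝ) (x : V) : ℝ :=
  gm G Λ J y fun A => spin A x

/-- Covariance of two spins. -/
noncomputable def cv (G : SimpleGraph V) (Λ : Finset V) (J : ℝ) (y : G.edgeSet → ℝ) (x w : V) : ℝ :=
  gm G Λ J y (fun A => spin A x * spin A w) - mag G Λ J y x * mag G Λ J y w

/-- Cavity magnetisation of the child of `D`. -/
noncomputable def cav (Λ : Finset V) (J : ℝ) (y : G.edgeSet → ℝ) (D : G.Dart) : ℝ :=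
  avg Λ.powerset (fun A => ham (EFin Λ D) J y A + y (ed D) * spin A D.fst) fun A => spin A D.fst

open Classical in
/-- The observed signal. -/
noncomputable def drift (G : SimpleGraph V) (Λ : Finset V) (A : Finset V) (e : G.edgeSet) : ℝ :=
  if e ∈ EF G Λ then sp A e.1 else 0

/-- The mean of the observed signal. -/
noncomputable def mdrift (G : SimpleGraph V) (Λ : Finset V) (J : ℝ) (y : G.edgeSet → ℝ)
    (e : G.edgeSet) : ℝ :=
  gm G Λ J y fun A => drift G Λ A e

/-- The damping factor along an edge as a function of the squared cavity magnetisation. -/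
noncomputable def rho (θ x : ℝ) : ℝ := (1 - x) / (1 - θ ^ 2 * x)

/-- The magnetisation of the child from its cavity magnetisation and the parent's magnetisation. -/
noncomputable def gg (θ μ m : ℝ) : ℝ := (μ * (1 - θ ^ 2) + m * θ * (1 - μ ^ 2)) / (1 - θ ^ 2 * μ ^ 2)

open Classical in
/-- The factor by which the covariance is multiplied along the dart `D`. -/
noncomputable def rr (Λ : Finset V) (J : ℝ) (y : G.edgeSet → ℝ) (D : G.Dart) : ℝ :=
  if ed D ∈ EF G Λ then Real.tanh J * rho (Real.tanh J) (cav Λ J y D ^ 2) else 0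

/-! ### The abstract branch model -/

/-- The message function. -/
noncomputable def fJ (J ξ : ℝ) : ℝ := 1 / 2 * Real.log (Real.cosh (ξ + J) / Real.cosh (ξ - J))

/-- Cavity field of the top vertex of a branch of depth `L` with edge fields `a`. -/
noncomputable def Xi (J : ℝ) : ℕ → (List (Fin b) → ℝ) → ℝ
  | 0, a => a []
  | L + 1, a => a [] + ∑ j : Fin b, (a [j] + fJ J (Xi J L fun l => a (j :: l)))

/-- The field that the branch exerts on its parent. -/
noncomputable def Psi (J : ℝ) (L : ℕ) (a : List (Fin b) → ℝ) : ℝ := a [] + fJ J (Xi J L a)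

lemma Xi_zero (J : ℝ) (a : List (Fin b) → ℝ) : Xi J 0 a = a [] := by
  simp only [Xi]

lemma Xi_succ (J : ℝ) (L : ℕ) (a : List (Fin b) → ℝ) :
    Xi J (L + 1) a = a [] + ∑ j : Fin b, Psi J L fun l => a (j :: l) := by
  have := @Xi.eq_def b J
  simp only [Xi, Psi]

lemma Xi_congr (J : ℝ) (L : ℕ) {a a' : List (Fin b) → ℝ} (h : ∀ l, l.length ≤ L → a l = a' l) :
    Xi J L a = Xi J L a' := by
  induction L generalizing a a' with
  | zero => rw [Xi_zero, Xi_zero, h _ (by simp)]
  | succ L ih =>
    rw [Xi_succ, Xi_succ, h _ (by simp)]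
    congr 1
    refine Finset.sum_congr rfl fun j _ => ?_
    simp only [Psi]
    rw [h [j] (by simp), ih (a := fun l => a (j :: l)) (a' := fun l => a' (j :: l))
      fun l hl => h _ (by simpa using hl)]

lemma continuous_fJ (J : ℝ) : Continuous (fJ J) := by
  unfold fJ
  refine continuous_const.mul (Continuous.log ?_ fun ξ => ?_)
  · exact Continuous.div (by fun_prop) (by fun_prop) fun ξ => (Real.cosh_pos _).ne'
  · exact (div_pos (Real.cosh_pos _) (Real.cosh_pos _)).ne'

lemma continuous_Xi (J : ℝ) (L : ℕ) : Continuous (Xi (b := b) J L) := by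
  induction L with
  | zero =>
    have : Xi (b := b) J 0 = fun a => a [] := funext (Xi_zero J)
    rw [this]
    fun_prop
  | succ L ih =>
    have : Xi (b := b) J (L + 1) = fun a => a [] + ∑ j : Fin b, Psi J L fun l => a (j :: l) :=
      funext (Xi_succ J L)
    rw [this]
    refine (continuous_apply _).add (continuous_finsetSum _ fun j _ => ?_)
    unfold Psi
    exact (continuous_apply _).add ((continuous_fJ J).comp (ih.comp (by fun_prop)))

/-- The spin of the parent of the dart with address `l`, when the top parent has spin `s` and the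
edge products are `τ`. -/
def parS : ℝ → (List (Fin b) → Bool) → List (Fin b) → ℝ
  | s, _, [] => s
  | s, τ, j :: l => parS (s * sgn (τ [])) (fun l' => τ (j :: l')) l

@[simp] lemma parS_nil (s : ℝ) (τ : List (Fin b) → Bool) : parS s τ [] = s := by
  simp only [parS]

@[simp] lemma parS_cons (s : ℝ) (τ : List (Fin b) → Bool) (j : Fin b) (l : List (Fin b)) :
    parS s τ (j :: l) = parS (s * sgn (τ [])) (fun l' => τ (j :: l')) l := by
  have := @parS.eq_def b
  simp only [parS]

/-- The observations on the branch: signal strength `c`, top parent spin `s`. -/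
noncomputable def arr (c s : ℝ) (ω : List (Fin b) → Bool × ℝ) (l : List (Fin b)) : ℝ :=
  c * (parS s (fun l => (ω l).1) l * (1 + sgn (ω l).1)) + √c * (ω l).2

lemma arr_nil (c s : ℝ) (ω : List (Fin b) → Bool × ℝ) :
    arr c s ω [] = c * (s * (1 + sgn (ω []).1)) + √c * (ω []).2 := by
  simp [arr]

lemma arr_cons (c s : ℝ) (ω : List (Fin b) → Bool × ℝ) (j : Fin b) (l : List (Fin b)) :
    arr c s ω (j :: l) = arr c (s * sgn (ω []).1) (fun l' => ω (j :: l')) l := by
  simp [arr]

/-- Law of an edge product under the free Ising measure with coupling `β'`. -/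
noncomputable def bern (β' : ℝ) : Measure Bool :=
  ENNReal.ofReal ((1 + Real.tanh β') / 2) • Measure.dirac true +
    ENNReal.ofReal ((1 - Real.tanh β') / 2) • Measure.dirac false

instance (β' : ℝ) : IsProbabilityMeasure (bern β') := by
  constructor
  have h1 := Real.neg_one_lt_tanh β'
  have h2 := Real.tanh_lt_one β'
  simp only [bern, Measure.coe_add, Measure.coe_smul, Pi.add_apply, Pi.smul_apply, measure_univ,
    smul_eq_mul, mul_one]
  rw [← ENNReal.ofReal_add (by linarith) (by linarith)]
  have : (1 + Real.tanh β') / 2 + (1 - Real.tanh β') / 2 = 1 := by ring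
  rw [this, ENNReal.ofReal_one]

/-- The law of the edge products and the Gaussian noise on a branch. -/
noncomputable def Pabs (b : ℕ) (β' : ℝ) : Measure (List (Fin b) → Bool × ℝ) :=
  Measure.infinitePi fun _ => (bern β').prod (gaussianReal 0 1)

instance (β' : ℝ) : IsProbabilityMeasure (Pabs b β') := by
  unfold Pabs
  infer_instance

/-! ### Noise and the Euler scheme -/

/-- Independent standard Gaussians. -/
noncomputable def gE (E : Type*) : Measure (E → ℝ) := Measure.infinitePi fun _ : E => gaussianReal 0 1

instance (E : Type*) : IsProbabilityMeasure (gE E) := by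
  unfold gE
  infer_instance

/-- Independent standard Gaussian sequences on the edges. -/
noncomputable def PX (E : Type*) : Measure (E → ℕ → ℝ) := Measure.infinitePi fun _ : E => gE ℕ

instance (E : Type*) : IsProbabilityMeasure (PX E) := by
  unfold PX
  infer_instance

/-- A sequence of independent standard Gaussian fields on the edges. -/
noncomputable def PN (E : Type*) : Measure (ℕ → E → ℝ) := Measure.infinitePi fun _ : ℕ => gE E

instance (E : Type*) : IsProbabilityMeasure (PN E) := by
  unfold PN
  infer_instance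

/-- Euler scheme in the volume `Λ` with mesh `2^-p`, started at step `s`, driven by `w`. -/
noncomputable def eul (G : SimpleGraph V) (Λ : Finset V) (β : ℝ) (p s : ℕ)
    (w : ℕ → G.edgeSet → ℝ) : ℕ → G.edgeSet → ℝ
  | 0 => 0
  | k + 1 => if k < s then 0 else fun e =>
      eul G Λ β p s w k e + β / 2 ^ p * mdrift G Λ (β * (1 - k / 2 ^ p)) (eul G Λ β p s w k) e +
        √(β / 2 ^ p) * w k e

lemma eul_zero (Λ : Finset V) (β : ℝ) (p s : ℕ) (w : ℕ → G.edgeSet → ℝ) :
    eul G Λ β p s w 0 = 0 := by
  simp only [eul]

lemma eul_succ (Λ : Finset V) (β : ℝ) (p s : ℕ) (w : ℕ → G.edgeSet → ℝ) (k : ℕ) :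
    eul G Λ β p s w (k + 1) = if k < s then 0 else fun e =>
      eul G Λ β p s w k e + β / 2 ^ p * mdrift G Λ (β * (1 - k / 2 ^ p)) (eul G Λ β p s w k) e +
        √(β / 2 ^ p) * w k e := by
  have := @eul.eq_def V G Λ β p s w
  simp only [eul]

end Crest.Agent.R160
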